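import Mathlib
import Vale.Agent.P150.Defs

/-!
Entropy of a positive weight on the cube, and single-site entropies, for P150.
Weights are not normalised: every functional below is homogeneous in the weight.
-/

open Real Finset

namespace Vale.Agent.P150.Ent

variable {n : ℕ}

/-- `f log (f / c) - f + c`. -/
noncomputable def phi (f c : ℝ) : ℝ := f * log f - f * log c - f + c

theorem phi_nonneg {f c : ℝ} (hf : 0 < f) (hc : 0 < c) : 0 ≤ phi f c := by
  have h := log_le_sub_one_of_pos (div_pos hc hf)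
  rw [log_div hc.ne' hf.ne'] at h
  have h2 := mul_le_mul_of_nonneg_left h hf.le
  rw [mul_sub, mul_sub, mul_one, mul_div_cancel₀ c hf.ne'] at h2
  unfold phi
  linarith

theorem phi_le_sq_div {f c : ℝ} (hf : 0 < f) (hc : 0 < c) : phi f c ≤ (f - c) ^ 2 / c := by
  have h := log_le_sub_one_of_pos (div_pos hf hc)
  rw [log_div hf.ne' hc.ne'] at h
  have h2 := mul_le_mul_of_nonneg_left h hf.le
  have e : (f - c) ^ 2 / c = f * (f / c - 1) - f + c := by field_simp; ring
  rw [e, phi]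
  linarith

/-- Changing the reference value in an average of `phi`. -/
theorem sum_phi_shift {ι : Type*} (s : Finset ι) (W f : ι → ℝ) (c F : ℝ)
    (hF : ∑ x ∈ s, W x * f x = F * ∑ x ∈ s, W x) :
    ∑ x ∈ s, W x * phi (f x) c = ∑ x ∈ s, W x * phi (f x) F + (∑ x ∈ s, W x) * phi F c := by
  have e : ∑ x ∈ s, W x * phi (f x) c - ∑ x ∈ s, W x * phi (f x) F
      = (log F - log c) * ∑ x ∈ s, W x * f x + (c - F) * ∑ x ∈ s, W x := by
    rw [← sum_sub_distrib, mul_sum, mul_sum, ← sum_add_distrib]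
    exact sum_congr rfl fun x _ => by simp only [phi]; ring
  rw [hF] at e
  rw [show phi F c = F * log F - F * log c - F + c from rfl]
  linear_combination e

/-- The log-sum inequality: `phi` is jointly convex and homogeneous. -/
theorem phi_sum_le {ι : Type*} (s : Finset ι) (hs : s.Nonempty) (p f c : ι → ℝ)
    (hp : ∀ x ∈ s, 0 < p x) (hf : ∀ x ∈ s, 0 < f x) (hc : ∀ x ∈ s, 0 < c x) {F M : ℝ}
    (hF : ∑ x ∈ s, p x * f x = F * ∑ x ∈ s, p x) (hM : ∑ x ∈ s, p x * c x = M * ∑ x ∈ s, p x) :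
    (∑ x ∈ s, p x) * phi F M ≤ ∑ x ∈ s, p x * phi (f x) (c x) := by
  have hZ : 0 < ∑ x ∈ s, p x := sum_pos hp hs
  have hFp : 0 < F := pos_of_mul_pos_left (hF ▸ sum_pos (fun x hx => mul_pos (hp x hx) (hf x hx)) hs) hZ.le
  have hMp : 0 < M := pos_of_mul_pos_left (hM ▸ sum_pos (fun x hx => mul_pos (hp x hx) (hc x hx)) hs) hZ.le
  have key : ∀ x ∈ s, p x * (f x * log (F / M) + (1 - F / M) * c x) ≤ p x * phi (f x) (c x) := by
    intro x hx
    refine mul_le_mul_of_nonneg_left ?_ (hp x hx).le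
    have h := phi_nonneg (hf x hx) (mul_pos (hc x hx) (div_pos hFp hMp))
    simp only [phi, log_mul (hc x hx).ne' (div_pos hFp hMp).ne'] at h ⊢
    nlinarith
  refine le_trans (le_of_eq ?_) (sum_le_sum key)
  have e : ∑ x ∈ s, p x * (f x * log (F / M) + (1 - F / M) * c x)
      = log (F / M) * ∑ x ∈ s, p x * f x + (1 - F / M) * ∑ x ∈ s, p x * c x := by
    rw [mul_sum, mul_sum, ← sum_add_distrib]
    exact sum_congr rfl fun x _ => by ring
  rw [e, hF, hM, log_div hFp.ne' hMp.ne', phi]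
  field_simp
  ring

/-- Total mass of a weight. -/
def mass (W : Conf n → ℝ) : ℝ := ∑ x, W x

/-- Mean under the normalised weight. -/
noncomputable def avg (W f : Conf n → ℝ) : ℝ := (∑ x, W x * f x) / mass W

/-- Entropy (times the mass). -/
noncomputable def ent (W f : Conf n → ℝ) : ℝ := ∑ x, W x * phi (f x) (avg W f)

/-- Mean over the pair `{x, x^i}`. -/
noncomputable def pairAvg (W f : Conf n → ℝ) (i : Fin n) (x : Conf n) : ℝ :=
  (W x * f x + W (flipAt x i) * f (flipAt x i)) / (W x + W (flipAt x i))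

/-- Mean conditional entropy at one site (times the mass). -/
noncomputable def entSite (W f : Conf n → ℝ) (i : Fin n) : ℝ :=
  ∑ x, W x * phi (f x) (pairAvg W f i x)

/-- The sum of all single-site entropies. -/
noncomputable def entTot (W f : Conf n → ℝ) : ℝ := ∑ i, entSite W f i

theorem flip_flip (x : Conf n) (i : Fin n) : flipAt (flipAt x i) i = x := by simp [flipAt]

theorem sum_flip (i : Fin n) (G : Conf n → ℝ) : ∑ x, G (flipAt x i) = ∑ x, G x :=
  Equiv.sum_comp (Function.Involutive.toPerm (fun x => flipAt x i) fun x => flip_flip x i) G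

theorem mass_pos {W : Conf n → ℝ} (hW : ∀ x, 0 < W x) : 0 < mass W :=
  sum_pos (fun x _ => hW x) univ_nonempty

theorem avg_pos {W f : Conf n → ℝ} (hW : ∀ x, 0 < W x) (hf : ∀ x, 0 < f x) : 0 < avg W f :=
  div_pos (sum_pos (fun x _ => mul_pos (hW x) (hf x)) univ_nonempty) (mass_pos hW)

theorem sum_eq_avg {W : Conf n → ℝ} (hW : ∀ x, 0 < W x) (f : Conf n → ℝ) :
    ∑ x, W x * f x = avg W f * ∑ x, W x :=
  (div_mul_cancel₀ _ (mass_pos hW).ne').symm

theorem avg_mem {W f : Conf n → ℝ} (hW : ∀ x, 0 < W x) {a b : ℝ} (ha : ∀ x, a ≤ f x)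
    (hb : ∀ x, f x ≤ b) : a ≤ avg W f ∧ avg W f ≤ b := by
  constructor
  · rw [avg, le_div_iff₀ (mass_pos hW), mass, mul_sum]
    exact sum_le_sum fun x _ => by nlinarith [hW x, ha x]
  · rw [avg, div_le_iff₀ (mass_pos hW), mass, mul_sum]
    exact sum_le_sum fun x _ => by nlinarith [hW x, hb x]

theorem ent_nonneg {W f : Conf n → ℝ} (hW : ∀ x, 0 < W x) (hf : ∀ x, 0 < f x) : 0 ≤ ent W f :=
  sum_nonneg fun x _ => mul_nonneg (hW x).le (phi_nonneg (hf x) (avg_pos hW hf))

theorem ent_eq {W f : Conf n → ℝ} (hW : ∀ x, 0 < W x) (c : ℝ) :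
    ∑ x, W x * phi (f x) c = ent W f + mass W * phi (avg W f) c :=
  sum_phi_shift univ W f c _ (sum_eq_avg hW f)

theorem ent_le {W f : Conf n → ℝ} (hW : ∀ x, 0 < W x) (hf : ∀ x, 0 < f x) {c : ℝ} (hc : 0 < c) :
    ent W f ≤ ∑ x, W x * phi (f x) c := by
  rw [ent_eq hW c]
  linarith [mul_nonneg (mass_pos hW).le (phi_nonneg (avg_pos hW hf) hc)]

theorem pairAvg_pos {W f : Conf n → ℝ} (hW : ∀ x, 0 < W x) (hf : ∀ x, 0 < f x) (i : Fin n)
    (x : Conf n) : 0 < pairAvg W f i x :=
  div_pos (add_pos (mul_pos (hW _) (hf _)) (mul_pos (hW _) (hf _))) (add_pos (hW _) (hW _))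

theorem pairAvg_flip (W f : Conf n → ℝ) (i : Fin n) (x : Conf n) :
    pairAvg W f i (flipAt x i) = pairAvg W f i x := by
  simp only [pairAvg, flip_flip]
  rw [add_comm, add_comm (W (flipAt x i))]

theorem entSite_nonneg {W f : Conf n → ℝ} (hW : ∀ x, 0 < W x) (hf : ∀ x, 0 < f x) (i : Fin n) :
    0 ≤ entSite W f i :=
  sum_nonneg fun x _ => mul_nonneg (hW x).le (phi_nonneg (hf x) (pairAvg_pos hW hf i x))

theorem entSite_le {W f : Conf n → ℝ} (hW : ∀ x, 0 < W x) (hf : ∀ x, 0 < f x) (i : Fin n)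
    {c : Conf n → ℝ} (hc : ∀ x, 0 < c x) (hci : ∀ x, c (flipAt x i) = c x) :
    entSite W f i ≤ ∑ x, W x * phi (f x) (c x) := by
  have key : ∀ x, W x * phi (f x) (pairAvg W f i x)
      + W (flipAt x i) * phi (f (flipAt x i)) (pairAvg W f i (flipAt x i))
      ≤ W x * phi (f x) (c x) + W (flipAt x i) * phi (f (flipAt x i)) (c (flipAt x i)) := by
    intro x
    rw [pairAvg_flip, hci]
    set m := pairAvg W f i x with hm
    have hp : 0 < W x + W (flipAt x i) := add_pos (hW _) (hW _)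
    have e : m * (W x + W (flipAt x i)) = W x * f x + W (flipAt x i) * f (flipAt x i) := by
      rw [hm, pairAvg, div_mul_cancel₀ _ hp.ne']
    have h := mul_nonneg hp.le (phi_nonneg (pairAvg_pos hW hf i x) (hc x))
    rw [← hm] at h
    simp only [phi] at h ⊢
    linear_combination h + (log m - log (c x)) * e
  have h := sum_le_sum (s := univ) fun x _ => key x
  rw [sum_add_distrib, sum_add_distrib, sum_flip i fun x => W x * phi (f x) (pairAvg W f i x),
    sum_flip i fun x => W x * phi (f x) (c x)] at h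
  unfold entSite
  linarith

/-- Comparison of entropies under comparison of weights. -/
theorem ent_mono {W W' f : Conf n → ℝ} (hW : ∀ x, 0 < W x) (hW' : ∀ x, 0 < W' x)
    (hf : ∀ x, 0 < f x) {r : ℝ} (h : ∀ x, W x ≤ r * W' x) : ent W f ≤ r * ent W' f := by
  refine (ent_le hW hf (avg_pos hW' hf)).trans ?_
  rw [ent, mul_sum]
  exact sum_le_sum fun x _ => by
    rw [← mul_assoc]; exact mul_le_mul_of_nonneg_right (h x) (phi_nonneg (hf x) (avg_pos hW' hf))

theorem entTot_mono {W W' f : Conf n → ℝ} (hW : ∀ x, 0 < W x) (hW' : ∀ x, 0 < W' x)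
    (hf : ∀ x, 0 < f x) {r : ℝ} (h : ∀ x, W x ≤ r * W' x) : entTot W f ≤ r * entTot W' f := by
  rw [entTot, entTot, mul_sum]
  refine sum_le_sum fun i _ => ?_
  refine (entSite_le hW hf i (pairAvg_pos hW' hf i) (pairAvg_flip W' f i)).trans ?_
  rw [entSite, mul_sum]
  exact sum_le_sum fun x _ => by
    rw [← mul_assoc]; exact mul_le_mul_of_nonneg_right (h x) (phi_nonneg (hf x) (pairAvg_pos hW' hf i x))

/-- Single-site entropies are superadditive in the weight. -/
theorem entTot_sum_le {ι : Type*} [Fintype ι] [Nonempty ι] (W : ι → Conf n → ℝ) {f : Conf n → ℝ}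
    (hW : ∀ a x, 0 < W a x) (hf : ∀ x, 0 < f x) :
    ∑ a, entTot (W a) f ≤ entTot (fun x => ∑ a, W a x) f := by
  have hS : ∀ x, 0 < ∑ a, W a x := fun x => sum_pos (fun a _ => hW a x) univ_nonempty
  simp only [entTot]
  rw [sum_comm]
  refine sum_le_sum fun i _ => ?_
  refine (sum_le_sum fun a _ => entSite_le (hW a) hf i
    (pairAvg_pos hS hf i) (pairAvg_flip _ f i)).trans (le_of_eq ?_)
  rw [entSite, sum_comm]
  simp only [sum_mul]

end Vale.Agent.P150.Ent
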