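import Mathlib
import Vale.Agent.P150.Semigroup
import Vale.Agent.P150.Ent.Basic

/-!
Exponential decay of entropy along the heat-bath semigroup from approximate tensorisation,
and the resulting bound on the mixing time. Used for P150.
-/

open Real Finset

namespace Vale.Agent.P150.Ent

variable {n : ℕ} {β : ℝ} {g : Pair n → ℝ}

theorem gen_shift_nonneg (h : Conf n → ℝ) (hh : ∀ x, 0 ≤ h x) (x : Conf n) :
    0 ≤ (genOp n β g + (n : ℝ) • 1) h x := by
  have e : (genOp n β g + (n : ℝ) • 1) h x
      = ∑ i, (rate n β g x i * h (flipAt x i) + (1 - rate n β g x i) * h x) := by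
    simp only [ContinuousLinearMap.add_apply, Pi.add_apply, genOp_apply, generator,
      ContinuousLinearMap.smul_apply, ContinuousLinearMap.one_def, ContinuousLinearMap.id_apply,
      Pi.smul_apply, smul_eq_mul]
    have : (n : ℝ) * h x = ∑ _i : Fin n, h x := by simp
    rw [this, ← sum_add_distrib]
    exact sum_congr rfl fun i _ => by ring
  rw [e]
  exact sum_nonneg fun i _ => add_nonneg (mul_nonneg (rate_mem g x i).1 (hh _))
    (mul_nonneg (by linarith [(rate_mem (β := β) g x i).2]) (hh x))

theorem semigroup_nonneg {t : ℝ} (ht : 0 ≤ t) {f : Conf n → ℝ} (hf : ∀ x, 0 ≤ f x) (x : Conf n) :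
    0 ≤ semigroup n β g t f x := by
  set A := t • (genOp n β g + (n : ℝ) • 1) with hA
  have hpow : ∀ k : ℕ, ∀ x, 0 ≤ (A ^ k) f x := by
    intro k
    induction k with
    | zero => simpa using hf
    | succ k ih =>
      intro x
      rw [pow_succ']
      exact mul_nonneg ht (gen_shift_nonneg _ ih x)
  have hs := ((NormedSpace.exp_series_hasSum_exp' (𝕂 := ℝ) A).mapL
    (ContinuousLinearMap.apply ℝ (Conf n → ℝ) f)).mapL (ContinuousLinearMap.proj (R := ℝ) x)
  have hpos : 0 ≤ NormedSpace.exp A f x := hs.nonneg fun k => by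
    simp only [ContinuousLinearMap.apply_apply, ContinuousLinearMap.proj_apply,
      ContinuousLinearMap.smul_apply, Pi.smul_apply, smul_eq_mul]
    exact mul_nonneg (by positivity) (hpow k x)
  have hsplit : NormedSpace.exp A = semigroup n β g t * (exp (t * n) • 1) := by
    have e1 : NormedSpace.exp ((t * n) • (1 : (Conf n → ℝ) →L[ℝ] (Conf n → ℝ))) = exp (t * n) • 1 := by
      rw [← Algebra.algebraMap_eq_smul_one, ← Algebra.algebraMap_eq_smul_one,
        ← NormedSpace.algebraMap_exp_comm, exp_eq_exp_ℝ]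
    rw [← e1, semigroup, hA, smul_add, smul_smul,
      NormedSpace.exp_add_of_commute_of_mem_ball (𝕂 := ℝ) ((Commute.one_right _).smul_right _)
        ((NormedSpace.expSeries_radius_eq_top ℝ ((Conf n → ℝ) →L[ℝ] (Conf n → ℝ))).symm ▸ edist_lt_top _ _)
        ((NormedSpace.expSeries_radius_eq_top ℝ ((Conf n → ℝ) →L[ℝ] (Conf n → ℝ))).symm ▸ edist_lt_top _ _)]
  rw [hsplit] at hpos
  simp only [mul_smul_comm, mul_one, ContinuousLinearMap.smul_apply, Pi.smul_apply, smul_eq_mul] at hpos
  exact nonneg_of_mul_nonneg_right hpos (exp_pos _)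

theorem semigroup_lower {t : ℝ} (ht : 0 ≤ t) {f : Conf n → ℝ} {δ : ℝ} (hf : ∀ x, δ ≤ f x)
    (x : Conf n) : δ ≤ semigroup n β g t f x := by
  have h := semigroup_nonneg (β := β) (g := g) ht (f := f - δ • fun _ => (1 : ℝ))
    (fun y => by simpa using hf y) x
  simp only [map_sub, map_smul, semigroup_one, Pi.sub_apply, Pi.smul_apply, smul_eq_mul, mul_one] at h
  linarith

/-- The bilinear form of one site. -/
theorem site_form (a b : Conf n → ℝ) (i : Fin n) :
    -∑ x, mu n β g x * a x * (rate n β g x i * (b (flipAt x i) - b x))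
      = (∑ x, mu n β g x * rate n β g x i * ((a (flipAt x i) - a x) * (b (flipAt x i) - b x))) / 2 := by
  have key : ∀ x, mu n β g (flipAt x i) * rate n β g (flipAt x i) i
      = mu n β g x * rate n β g x i := fun x => by
    simp only [rate, flip_flip]
    rw [add_comm (mu n β g (flipAt x i))]
    ring
  have hs := sum_flip i fun x => mu n β g x * a x * (rate n β g x i * (b (flipAt x i) - b x))
  have e : ∀ x, mu n β g (flipAt x i) * a (flipAt x i) * (rate n β g (flipAt x i) i
      * (b (flipAt (flipAt x i) i) - b (flipAt x i)))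
      = mu n β g x * rate n β g x i * (a (flipAt x i) * (b x - b (flipAt x i))) := fun x => by
    rw [flip_flip]
    linear_combination (a (flipAt x i) * (b x - b (flipAt x i))) * key x
  simp only [e] at hs
  have : ∑ x, mu n β g x * rate n β g x i * ((a (flipAt x i) - a x) * (b (flipAt x i) - b x))
      = -(∑ x, mu n β g x * rate n β g x i * (a (flipAt x i) * (b x - b (flipAt x i))))
        - ∑ x, mu n β g x * a x * (rate n β g x i * (b (flipAt x i) - b x)) := by
    rw [← sum_neg_distrib, ← sum_sub_distrib]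
    exact sum_congr rfl fun x _ => by ring
  linarith

/-- Single-site entropy is at most the single-site form of `(u, log u)`. -/
theorem entSite_le_form {u : Conf n → ℝ} (hu : ∀ x, 0 < u x) (i : Fin n) :
    entSite (mu n β g) u i ≤ (∑ x, mu n β g x * rate n β g x i
      * ((log (u (flipAt x i)) - log (u x)) * (u (flipAt x i) - u x))) / 2 := by
  set G : Conf n → ℝ := fun x => mu n β g x * rate n β g x i
      * ((log (u (flipAt x i)) - log (u x)) * (u (flipAt x i) - u x)) / 2 with hG
  have key : ∀ x, mu n β g x * phi (u x) (pairAvg (mu n β g) u i x)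
      + mu n β g (flipAt x i) * phi (u (flipAt x i)) (pairAvg (mu n β g) u i (flipAt x i))
      ≤ G x + G (flipAt x i) := by
    intro x
    rw [pairAvg_flip]
    simp only [hG, rate, flip_flip]
    set p := mu n β g x with hp'
    set q := mu n β g (flipAt x i) with hq'
    set a := u x with ha'
    set b := u (flipAt x i) with hb'
    set m := pairAvg (mu n β g) u i x with hm
    have hp : 0 < p := mu_pos g x
    have hq : 0 < q := mu_pos g _
    have hmp : 0 < m := pairAvg_pos (mu_pos g) hu i x
    have em : m * (p + q) = p * a + q * b := by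
      rw [hm, pairAvg, ← hp', ← hq', ← ha', ← hb', div_mul_cancel₀ _ (by linarith : p + q ≠ 0)]
    have la := log_le_sub_one_of_pos (div_pos (hu x) hmp)
    have lb := log_le_sub_one_of_pos (div_pos (hu (flipAt x i)) hmp)
    rw [log_div (hu _).ne' hmp.ne'] at la lb
    have hconc : p * log a + q * log b ≤ (p + q) * log m := by
      have h := add_le_add (mul_le_mul_of_nonneg_left la hp.le) (mul_le_mul_of_nonneg_left lb hq.le)
      have e : p * (a / m - 1) + q * (b / m - 1) = 0 := by field_simp; linear_combination -em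
      rw [← ha', ← hb'] at h
      linarith
    have h2 := mul_le_mul_of_nonneg_left hconc hmp.le
    have e2 : p * q / (p + q) * ((a - b) * (log a - log b))
        = p * a * log a + q * b * log b - m * (p * log a + q * log b) := by
      rw [show m = (p * a + q * b) / (p + q) from by rw [← em]; field_simp]
      field_simp
      ring
    have e3 : p * (q / (p + q)) * ((log b - log a) * (b - a)) / 2
        + q * (p / (q + p)) * ((log a - log b) * (a - b)) / 2
        = p * q / (p + q) * ((a - b) * (log a - log b)) := by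
      rw [add_comm q p]; field_simp; ring
    rw [e3, e2]
    simp only [phi]
    linear_combination h2 + (1 + log m) * em
  have h := sum_le_sum (s := univ) fun x _ => key x
  rw [sum_add_distrib, sum_add_distrib, sum_flip i fun x => mu n β g x * phi (u x) (pairAvg (mu n β g) u i x),
    sum_flip i G] at h
  have e : ∑ x, G x = (∑ x, mu n β g x * rate n β g x i
      * ((log (u (flipAt x i)) - log (u x)) * (u (flipAt x i) - u x))) / 2 := by
    rw [hG, sum_div]
  unfold entSite
  linarith

theorem mass_mu : mass (mu n β g) = 1 := mu_sum g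

theorem ent_mu {u : Conf n → ℝ} (hm : ∑ x, mu n β g x * u x = 1) :
    ent (mu n β g) u = ∑ x, mu n β g x * (u x * log (u x)) := by
  have ha : avg (mu n β g) u = 1 := by rw [avg, hm, mass_mu, div_one]
  rw [ent, ha]
  have : ∀ x, mu n β g x * phi (u x) 1
      = mu n β g x * (u x * log (u x)) - mu n β g x * u x + mu n β g x := fun x => by
    simp only [phi, log_one, mul_zero, sub_zero]; ring
  simp only [this, sum_add_distrib, sum_sub_distrib, hm, mu_sum]
  ring

theorem entropy_decay {a : ℝ} (ha : 0 < a)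
    (hH : ∀ u : Conf n → ℝ, (∀ x, 0 < u x) → ent (mu n β g) u ≤ a * entTot (mu n β g) u)
    {f : Conf n → ℝ} {δ : ℝ} (hδ : 0 < δ) (hf : ∀ x, δ ≤ f x) (hm : ∑ x, mu n β g x * f x = 1)
    {t : ℝ} (ht : 0 ≤ t) :
    ent (mu n β g) (semigroup n β g t f) ≤ exp (-(t / a)) * ent (mu n β g) f := by
  set P : ℝ → Conf n → ℝ := fun s => semigroup n β g s f with hP
  have hPm : ∀ s, ∑ x, mu n β g x * P s x = 1 := fun s => by rw [hP]; simp only [semigroup_mean, hm]
  have hPp : ∀ s, 0 ≤ s → ∀ x, 0 < P s x := fun s hs x => hδ.trans_le (semigroup_lower hs hf x)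
  set Φ : ℝ → ℝ := fun s => ∑ x, mu n β g x * (P s x * log (P s x)) with hΦ
  set D : ℝ → ℝ := fun s => ∑ x, mu n β g x * ((log (P s x) + 1) * genOp n β g (P s) x) with hD
  have hd : ∀ s, 0 ≤ s → HasDerivAt Φ (D s) s := fun s hs => by
    refine HasDerivAt.fun_sum fun x _ => ?_
    have h1 := (hasDerivAt_mul_log (hPp s hs x).ne').comp s
      (hasDerivAt_pi.1 (semigroup_deriv' f s) x)
    exact h1.const_mul _
  have hDle : ∀ s, 0 ≤ s → D s ≤ -(Φ s) / a := by
    intro s hs
    have h0 : ∑ x, mu n β g x * genOp n β g (P s) x = 0 := by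
      have h := gen_symm (β := β) (g := g) (fun _ => 1) (P s)
      have h1 : genOp n β g (fun _ : Conf n => (1 : ℝ)) = 0 := by funext x; simp [genOp_apply, generator]
      simpa [ip, h1] using h
    have e : D s = ∑ x, mu n β g x * log (P s x) * genOp n β g (P s) x := by
      have e1 : D s = ∑ x, mu n β g x * log (P s x) * genOp n β g (P s) x
          + ∑ x, mu n β g x * genOp n β g (P s) x := by
        rw [hD, ← sum_add_distrib]
        exact sum_congr rfl fun x _ => by ring
      rw [e1, h0, add_zero]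
    have h2 : entTot (mu n β g) (P s) ≤ -D s := by
      rw [e]
      simp only [genOp_apply, generator, mul_sum]
      rw [sum_comm, ← sum_neg_distrib]
      refine sum_le_sum fun i _ => ?_
      rw [site_form (fun x => log (P s x)) (P s) i]
      exact entSite_le_form (hPp s hs) i
    have h3 := hH (P s) (hPp s hs)
    rw [ent_mu (hPm s)] at h3
    rw [le_div_iff₀ ha]
    have h4 := mul_le_mul_of_nonneg_left h2 ha.le
    linarith
  set Ψ : ℝ → ℝ := fun s => exp (s / a) * Φ s with hΨ
  have hΨd : ∀ s, 0 ≤ s → HasDerivAt Ψ (exp (s / a) * (1 / a) * Φ s + exp (s / a) * D s) s :=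
    fun s hs => (((hasDerivAt_id' s).div_const a).exp).mul (hd s hs)
  have hanti := antitoneOn_of_hasDerivWithinAt_nonpos (convex_Ici (0 : ℝ))
    (fun s hs => (hΨd s hs).continuousAt.continuousWithinAt)
    (fun s hs => (hΨd s (interior_subset hs)).hasDerivWithinAt)
    (fun s hs => by
      have h := mul_le_mul_of_nonneg_left (hDle s (interior_subset hs)) (exp_pos (s / a)).le
      have e : exp (s / a) * (1 / a) * Φ s = -(exp (s / a) * (-(Φ s) / a)) := by ring
      linarith)
    Set.self_mem_Ici (Set.mem_Ici.2 ht) ht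
  have h0 : Φ 0 = ent (mu n β g) f := by simp [hΦ, hP, semigroup_zero, ent_mu hm]
  simp only [hΨ, zero_div, exp_zero, one_mul, h0] at hanti
  rw [ent_mu (hPm t), exp_neg, ← div_eq_inv_mul, le_div_iff₀ (exp_pos _), mul_comm]
  exact hanti

/-- An elementary form of the Pinsker inequality. -/
theorem abs_sub_one_sq_le {u : Conf n → ℝ} (hu : ∀ x, 0 < u x) (hm : ∑ x, mu n β g x * u x = 1) :
    (∑ x, mu n β g x * |u x - 1|) ^ 2 ≤ 4 * ent (mu n β g) u := by
  have ha : avg (mu n β g) u = 1 := by rw [avg, hm, mass_mu, div_one]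
  have hpt : ∀ x, (√(u x) - 1) ^ 2 ≤ phi (u x) 1 := fun x => by
    set r := √(u x) with hr
    have hr0 : 0 < r := sqrt_pos.2 (hu x)
    have hr2 : r ^ 2 = u x := sq_sqrt (hu x).le
    have h := one_sub_inv_le_log_of_pos hr0
    have h2 := mul_le_mul_of_nonneg_left h (show 0 ≤ 2 * r ^ 2 by positivity)
    have e : 2 * r ^ 2 * (1 - r⁻¹) = 2 * r ^ 2 - 2 * r := by field_simp
    have el : log (u x) = 2 * log r := by rw [← hr2, log_pow]; norm_num
    simp only [phi, log_one, mul_zero, sub_zero]
    rw [el, ← hr2]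
    linarith
  have hcs := sum_mul_sq_le_sq_mul_sq univ (fun x => √(mu n β g x) * |√(u x) - 1|)
    (fun x => √(mu n β g x) * (√(u x) + 1))
  have e1 : ∀ x, √(mu n β g x) * |√(u x) - 1| * (√(mu n β g x) * (√(u x) + 1))
      = mu n β g x * |u x - 1| := fun x => by
    rw [mul_mul_mul_comm, mul_self_sqrt (mu_pos g x).le]
    congr 1
    have : u x - 1 = (√(u x) - 1) * (√(u x) + 1) := by
      have := sq_sqrt (hu x).le; linear_combination -this
    rw [this, abs_mul, abs_of_pos (show (0 : ℝ) < √(u x) + 1 by positivity)]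
  have e2 : ∑ x, (√(mu n β g x) * |√(u x) - 1|) ^ 2 ≤ ent (mu n β g) u := by
    rw [ent, ha]
    refine sum_le_sum fun x _ => ?_
    rw [mul_pow, sq_sqrt (mu_pos g x).le, sq_abs]
    exact mul_le_mul_of_nonneg_left (hpt x) (mu_pos g x).le
  have e3 : ∑ x, (√(mu n β g x) * (√(u x) + 1)) ^ 2 ≤ 4 := by
    have : ∀ x, (√(mu n β g x) * (√(u x) + 1)) ^ 2 ≤ 2 * (mu n β g x * u x) + 2 * mu n β g x := fun x => by
      rw [mul_pow, sq_sqrt (mu_pos g x).le]
      have h := mul_nonneg (mu_pos (β := β) g x).le (sq_nonneg (√(u x) - 1))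
      linear_combination h + 2 * mu n β g x * sq_sqrt (hu x).le
    refine (sum_le_sum fun x _ => this x).trans (le_of_eq ?_)
    rw [sum_add_distrib, ← mul_sum, ← mul_sum, hm, mu_sum]
    norm_num
  simp only [e1] at hcs
  refine hcs.trans ((mul_le_mul e2 e3 (sum_nonneg fun x _ => sq_nonneg _)
    (ent_nonneg (mu_pos g) hu)).trans (by linarith))

/-- Approximate tensorisation of entropy gives fast mixing. -/
theorem mixedBy_of_tensor {a L : ℝ} (ha : 0 < a) (hL : 1 ≤ L)
    (hH : ∀ u : Conf n → ℝ, (∀ x, 0 < u x) → ent (mu n β g) u ≤ a * entTot (mu n β g) u)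
    (hmin : ∀ x, exp (-L) ≤ mu n β g x) {t : ℝ} (ht : a * log (64 * L) ≤ t) : MixedBy n β g t := by
  intro x
  have hL0 : 0 ≤ log (64 * L) := log_nonneg (by linarith)
  have ht0 : 0 ≤ t := le_trans (mul_nonneg ha.le hL0) ht
  set d : Conf n → ℝ := Pi.single x (mu n β g x)⁻¹ with hd
  set f : Conf n → ℝ := (1 / 2 : ℝ) • d + (1 / 2 : ℝ) • fun _ => (1 : ℝ) with hf
  have hd0 : ∀ y, 0 ≤ d y := fun y => by
    by_cases h : y = x <;> simp [hd, h, (mu_pos (β := β) g x).le]
  have hflo : ∀ y, (1 / 2 : ℝ) ≤ f y := fun y => by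
    simp only [hf, Pi.add_apply, Pi.smul_apply, smul_eq_mul]; linarith [hd0 y]
  have hfp : ∀ y, 0 < f y := fun y => lt_of_lt_of_le (by norm_num) (hflo y)
  have hdm : ∑ y, mu n β g y * d y = 1 := by
    simp [hd, Pi.single_apply, (mu_pos (β := β) g x).ne']
  have hfm : ∑ y, mu n β g y * f y = 1 := by
    simp only [hf, Pi.add_apply, Pi.smul_apply, smul_eq_mul, mul_add, sum_add_distrib, mul_left_comm,
      ← mul_sum, hdm]
    simp [mu_sum]
    norm_num
  have hent : ent (mu n β g) f ≤ L := by
    rw [ent_mu hfm]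
    have hb : ∀ y, mu n β g y * (f y * log (f y)) ≤ mu n β g y * f y * L := fun y => by
      rw [← mul_assoc]
      refine mul_le_mul_of_nonneg_left ?_ (mul_pos (mu_pos g y) (hfp y)).le
      rw [log_le_iff_le_exp (hfp y)]
      have h1 : d y ≤ exp L := by
        by_cases h : y = x
        · simp only [hd, h, Pi.single_eq_same]
          rw [inv_le_comm₀ (mu_pos g x) (exp_pos L), ← exp_neg]
          exact hmin x
        · simp [hd, h, (exp_pos L).le]
      simp only [hf, Pi.add_apply, Pi.smul_apply, smul_eq_mul]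
      linarith [one_le_exp (zero_le_one.trans hL)]
    refine (sum_le_sum fun y _ => hb y).trans (le_of_eq ?_)
    rw [← sum_mul, hfm, one_mul]
  set u := semigroup n β g t f with hu
  have hum : ∑ y, mu n β g y * u y = 1 := by rw [hu, semigroup_mean, hfm]
  have hup : ∀ y, 0 < u y := fun y => lt_of_lt_of_le (by norm_num) (semigroup_lower ht0 hflo y)
  have hdec := entropy_decay ha hH (by norm_num) hflo hfm ht0
  have hexp : exp (-(t / a)) ≤ 1 / (64 * L) := by
    rw [exp_neg, one_div]
    refine inv_anti₀ (by linarith) ?_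
    rw [← exp_log (show 0 < 64 * L by linarith)]
    exact exp_le_exp.2 (by rw [le_div_iff₀ ha]; linarith)
  have he : ent (mu n β g) u ≤ 1 / 64 := by
    refine hdec.trans ((mul_le_mul hexp hent (ent_nonneg (mu_pos g) hfp) (by positivity)).trans (le_of_eq ?_))
    field_simp
  have hs : ∑ y, mu n β g y * |u y - 1| ≤ 1 / 4 := by
    have h := abs_sub_one_sq_le hup hum
    nlinarith [sum_nonneg fun y (_ : y ∈ univ) => mul_nonneg (mu_pos (β := β) g y).le (abs_nonneg (u y - 1))]
  have hk : ∀ y, |kernel n β g t x y - mu n β g y| = 2 * (mu n β g y * |u y - 1|) := fun y => by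
    have hy := semigroup_symm (β := β) (g := g) d (Pi.single y (1 : ℝ)) t
    simp only [ip, hd] at hy
    simp only [Pi.single_apply, mul_ite, ite_mul, mul_zero, zero_mul, mul_one,
      sum_ite_eq', mem_univ, if_true, mul_inv_cancel₀ (mu_pos (β := β) g x).ne', one_mul] at hy
    have eu : u y - 1 = (semigroup n β g t d y - 1) / 2 := by
      rw [hu, hf, map_add, map_smul, map_smul, semigroup_one]
      simp only [Pi.add_apply, Pi.smul_apply, smul_eq_mul]
      ring
    rw [kernel, show semigroup n β g t (Pi.single y 1) x = mu n β g y * semigroup n β g t d y from hy,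
      eu, abs_div, abs_two, ← mul_sub_one, abs_mul, abs_of_pos (mu_pos g y)]
    ring
  simp only [hk, ← mul_sum]
  linarith

end Vale.Agent.P150.Ent
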