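import Mathlib
import Vale.Agent.P150.Ent.Basic

/-!
Tensorisation of entropy for product weights, for P150.
-/

open Real Finset

namespace Vale.Agent.P150.Ent

/-- A product weight. -/
def prodW {n : ℕ} (w : Fin n → Bool → ℝ) (x : Conf n) : ℝ := ∏ i, w i (x i)

theorem prodW_pos {n : ℕ} {w : Fin n → Bool → ℝ} (hw : ∀ i b, 0 < w i b) (x : Conf n) :
    0 < prodW w x :=
  prod_pos fun i _ => hw i (x i)

theorem sum_cons {n : ℕ} (G : Conf (n + 1) → ℝ) :
    ∑ x, G x = ∑ b : Bool, ∑ y : Conf n, G (Fin.cons b y) := by
  rw [← (Fin.consEquiv fun _ : Fin (n + 1) => Bool).sum_comp, Fintype.sum_prod_type]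
  rfl

theorem prodW_cons {n : ℕ} (w : Fin (n + 1) → Bool → ℝ) (b : Bool) (y : Conf n) :
    prodW w (Fin.cons b y) = w 0 b * prodW (fun i => w i.succ) y := by
  simp [prodW, Fin.prod_univ_succ]

theorem flip_cons_succ {n : ℕ} (b : Bool) (y : Conf n) (i : Fin n) :
    flipAt (Fin.cons b y : Conf (n + 1)) i.succ = Fin.cons b (flipAt y i) := by
  simp [flipAt, Fin.cons_update]

theorem flip_cons_zero {n : ℕ} (b : Bool) (y : Conf n) :
    flipAt (Fin.cons b y : Conf (n + 1)) 0 = Fin.cons (!b) y := by
  simp [flipAt, Fin.update_cons_zero]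

theorem ent_le_entTot_prod : ∀ (n : ℕ) (w : Fin n → Bool → ℝ), (∀ i b, 0 < w i b) →
    ∀ f : Conf n → ℝ, (∀ x, 0 < f x) → ent (prodW w) f ≤ entTot (prodW w) f := by
  intro n
  induction n with
  | zero =>
    intro w hw f hf
    refine le_of_eq ?_
    have e : ∀ x, f x = f default := fun x => congrArg f (Subsingleton.elim _ _)
    have hm : avg (prodW w) f = f default := by
      rw [avg]
      simp only [e, ← sum_mul, mass]
      exact mul_div_cancel_left₀ _ (mass_pos (prodW_pos hw)).ne'
    simp [ent, hm, e, phi, entTot]
  | succ n ih =>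
    intro w hw f hf
    set w' : Fin n → Bool → ℝ := fun i => w i.succ with hw'
    have hw'p : ∀ i b, 0 < w' i b := fun i b => hw _ b
    have hW := prodW_pos hw
    have hW' := prodW_pos hw'p
    set fb : Bool → Conf n → ℝ := fun b y => f (Fin.cons b y) with hfb
    have hfbp : ∀ b y, 0 < fb b y := fun b y => hf _
    -- pair mean at the first site, as a function of the other coordinates
    set m : Conf n → ℝ := fun y => pairAvg (prodW w) f 0 (Fin.cons true y) with hm
    have hmp : ∀ y, 0 < m y := fun y => pairAvg_pos hW hf 0 _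
    have hmb : ∀ b y, pairAvg (prodW w) f 0 (Fin.cons b y) = m y := by
      intro b y
      cases b
      · rw [← pairAvg_flip, flip_cons_zero]; rfl
      · rfl
    have hM : 0 < avg (prodW w') m := avg_pos hW' hmp
    have first : ∀ b, ent (prodW w') (fb b)
        + mass (prodW w') * phi (avg (prodW w') (fb b)) (avg (prodW w') m)
        ≤ entTot (prodW w') (fb b) + ∑ y, prodW w' y * phi (fb b y) (m y) := fun b =>
      add_le_add (ih w' hw'p _ (hfbp b))
        (phi_sum_le univ univ_nonempty _ _ _ (fun y _ => hW' y) (fun y _ => hfbp b y)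
          (fun y _ => hmp y) (sum_eq_avg hW' _) (sum_eq_avg hW' _))
    calc ent (prodW w) f ≤ ∑ x, prodW w x * phi (f x) (avg (prodW w') m) := ent_le hW hf hM
      _ = ∑ b : Bool, w 0 b * (ent (prodW w') (fb b)
          + mass (prodW w') * phi (avg (prodW w') (fb b)) (avg (prodW w') m)) := by
            rw [sum_cons]
            refine sum_congr rfl fun b _ => ?_
            rw [← ent_eq hW', mul_sum]
            exact sum_congr rfl fun y _ => by rw [prodW_cons]; ring
      _ ≤ ∑ b : Bool, w 0 b * (entTot (prodW w') (fb b) + ∑ y, prodW w' y * phi (fb b y) (m y)) :=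
            sum_le_sum fun b _ => mul_le_mul_of_nonneg_left (first b) (hw 0 b).le
      _ = entTot (prodW w) f := by
            simp only [mul_add, sum_add_distrib, entTot, mul_sum, Fin.sum_univ_succ (n := n)]
            rw [add_comm]
            congr 1
            · rw [entSite, sum_cons]
              exact sum_congr rfl fun b _ => sum_congr rfl fun y _ => by
                rw [prodW_cons, hmb, mul_assoc]
            · rw [sum_comm]
              refine sum_congr rfl fun i _ => ?_
              simp only [entSite, mul_sum]
              rw [sum_cons]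
              refine sum_congr rfl fun b _ => sum_congr rfl fun y _ => ?_
              have e : pairAvg (prodW w) f i.succ (Fin.cons b y) = pairAvg (prodW w') (fb b) i y := by
                simp only [pairAvg, flip_cons_succ, prodW_cons, hfb, hw']
                rw [mul_assoc, mul_assoc, ← mul_add, ← mul_add, mul_div_mul_left _ _ (hw 0 b).ne']
              rw [e, prodW_cons, hw', hfb]
              ring

end Vale.Agent.P150.Ent
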