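import Mathlib
import Vale.Agent.P150.Ent.Basic

/-!
A variance bound for all exponential tilts gives a sub-Gaussian bound, hence a bound of
covariances with linear functions by entropy. Used for P150.
-/

open Real Finset

namespace Vale.Agent.P150.Ent

variable {n : ℕ}

/-- The linear function with coefficients `u`. -/
def lin (u : Fin n → ℝ) (x : Conf n) : ℝ := ∑ j, u j * spin (x j)

/-- The exponential tilt of a weight. -/
noncomputable def tilt (W : Conf n → ℝ) (u : Fin n → ℝ) (r : ℝ) (x : Conf n) : ℝ :=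
  W x * exp (r * lin u x)

theorem tilt_pos {W : Conf n → ℝ} (hW : ∀ x, 0 < W x) (u : Fin n → ℝ) (r : ℝ) (x : Conf n) :
    0 < tilt W u r x :=
  mul_pos (hW x) (exp_pos _)

/-- Covariances of `f` with the coordinates under the normalised weight. -/
noncomputable def covVec (W f : Conf n → ℝ) (j : Fin n) : ℝ :=
  avg W (fun x => f x * spin (x j)) - avg W f * avg W (fun x => spin (x j))

theorem hasDeriv_tilt_sum (W G : Conf n → ℝ) (u : Fin n → ℝ) (r : ℝ) :
    HasDerivAt (fun s => ∑ x, tilt W u s x * G x) (∑ x, tilt W u r x * (lin u x * G x)) r := by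
  refine HasDerivAt.fun_sum fun x _ => ?_
  have h := ((((hasDerivAt_id' r).mul_const (lin u x)).exp).const_mul (W x)).mul_const (G x)
  exact h.congr_deriv (by simp only [tilt]; ring)

theorem subgauss {W : Conf n → ℝ} (hW : ∀ x, 0 < W x) (u : Fin n → ℝ) {κ : ℝ}
    (hκ : ∀ r, avg (tilt W u r) (fun x => lin u x ^ 2) - avg (tilt W u r) (lin u) ^ 2 ≤ κ)
    {r : ℝ} (hr : 0 ≤ r) :
    ∑ x, W x * exp (r * (lin u x - avg W (lin u)) - κ * r ^ 2 / 2) ≤ mass W := by
  set m := avg W (lin u) with hm
  have hG : ∀ s, 0 < mass (tilt W u s) := fun s => mass_pos (tilt_pos hW u s)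
  have hdG : ∀ s, HasDerivAt (fun t => mass (tilt W u t)) (∑ x, tilt W u s x * lin u x) s :=
    fun s => by simpa [mass] using hasDeriv_tilt_sum W (fun _ => 1) u s
  have hD : ∀ s, HasDerivAt (fun t => avg (tilt W u t) (lin u) - κ * t)
      (avg (tilt W u s) (fun x => lin u x ^ 2) - avg (tilt W u s) (lin u) ^ 2 - κ) s := fun s => by
    refine (((hasDeriv_tilt_sum W (lin u) u s).div (hdG s) (hG s).ne').sub
      ((hasDerivAt_id' s).const_mul κ)).congr_deriv ?_
    simp only [avg, pow_two]
    field_simp [(hG s).ne']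
  have hψ : ∀ s, HasDerivAt (fun t => log (mass (tilt W u t)) - t * m - κ * t ^ 2 / 2)
      (avg (tilt W u s) (lin u) - κ * s - m) s := fun s => by
    refine ((((hdG s).log (hG s).ne').sub ((hasDerivAt_id' s).mul_const m)).sub
      (((hasDerivAt_pow 2 s).const_mul κ).div_const 2)).congr_deriv ?_
    simp only [avg]
    push_cast
    ring
  have hDanti : Antitone (fun t => avg (tilt W u t) (lin u) - κ * t) :=
    antitone_of_hasDerivAt_nonpos hD fun s => sub_nonpos.2 (hκ s)
  have h0 : tilt W u 0 = W := by funext x; simp [tilt]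
  have hle : ∀ s, 0 ≤ s → avg (tilt W u s) (lin u) - κ * s - m ≤ 0 := fun s hs => by
    have := hDanti hs
    simp only [h0, mul_zero, sub_zero, ← hm] at this
    linarith
  have hanti := antitoneOn_of_hasDerivWithinAt_nonpos (convex_Ici (0 : ℝ))
    (fun s _ => (hψ s).continuousAt.continuousWithinAt) (fun s _ => (hψ s).hasDerivWithinAt)
    (fun s hs => hle s (interior_subset hs : s ∈ Set.Ici (0 : ℝ)))
    Set.self_mem_Ici (Set.mem_Ici.2 hr) hr
  simp only [h0, zero_mul, sub_zero, ne_eq, OfNat.ofNat_ne_zero, not_false_eq_true, zero_pow,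
    mul_zero, zero_div] at hanti
  calc ∑ x, W x * exp (r * (lin u x - m) - κ * r ^ 2 / 2)
      = mass (tilt W u r) * exp (-(r * m) - κ * r ^ 2 / 2) := by
        rw [mass, sum_mul]
        refine sum_congr rfl fun x _ => ?_
        rw [tilt, mul_assoc, ← exp_add]
        ring_nf
    _ = exp (log (mass (tilt W u r)) - r * m - κ * r ^ 2 / 2) := by
        rw [← exp_log (hG r), ← exp_add, exp_log (hG r)]
        ring_nf
    _ ≤ exp (log (mass W)) := exp_le_exp.2 hanti
    _ = mass W := exp_log (mass_pos hW)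

/-- Covariances with linear functions are controlled by entropy. -/
theorem covVec_sq_le {W f : Conf n → ℝ} (hW : ∀ x, 0 < W x) (hf : ∀ x, 0 < f x) {C : ℝ} (hC : 0 < C)
    (hκ : ∀ u r, avg (tilt W u r) (fun x => lin u x ^ 2) - avg (tilt W u r) (lin u) ^ 2
      ≤ C * ∑ j, u j ^ 2) :
    mass W * ∑ j, covVec W f j ^ 2 ≤ 2 * C * avg W f * ent W f := by
  set c := covVec W f with hc
  set F := avg W f with hF
  set N := ∑ j, c j ^ 2 with hN
  have hFp : 0 < F := avg_pos hW hf
  have hmass := mass_pos hW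
  set r := 1 / (C * F) with hr
  set a : Conf n → ℝ := fun x => r * (lin c x - avg W (lin c)) - C * N * r ^ 2 / 2 with ha
  have hexp : ∑ x, W x * exp (a x) ≤ mass W := subgauss hW c (hκ c) (by positivity)
  have hpt : ∀ x, W x * (f x * a x) ≤ W x * phi (f x) F + F * (W x * exp (a x) - W x) := fun x => by
    have h := phi_nonneg (hf x) (mul_pos hFp (exp_pos (a x)))
    simp only [phi, log_mul hFp.ne' (exp_pos (a x)).ne', log_exp] at h ⊢
    nlinarith [mul_nonneg (hW x).le h]
  have hsum := sum_le_sum (s := univ) fun x _ => hpt x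
  rw [sum_add_distrib, ← mul_sum, sum_sub_distrib] at hsum
  have hlin : avg W (fun x => f x * lin c x) - F * avg W (lin c) = N := by
    have e : ∀ G : Conf n → ℝ, avg W (fun x => G x * lin c x)
        = ∑ j, c j * avg W (fun x => G x * spin (x j)) := fun G => by
      simp only [avg, lin, mul_sum, sum_div]
      rw [sum_comm]
      exact sum_congr rfl fun j _ => sum_congr rfl fun x _ => by ring
    have e1 := e fun _ => 1
    simp only [one_mul] at e1
    rw [e f, show avg W (lin c) = _ from e1, hN, mul_sum, ← sum_sub_distrib]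
    exact sum_congr rfl fun j _ => by rw [hc, covVec, ← hF]; ring
  have hfl : ∑ x, W x * (f x * a x) = mass W * (r * N - C * N * r ^ 2 / 2 * F) := by
    have e1 : ∑ x, W x * (f x * lin c x) = avg W (fun x => f x * lin c x) * ∑ x, W x := sum_eq_avg hW _
    have e2 : ∑ x, W x * f x = F * ∑ x, W x := sum_eq_avg hW f
    have e : ∑ x, W x * (f x * a x) = r * ∑ x, W x * (f x * lin c x)
        - (r * avg W (lin c) + C * N * r ^ 2 / 2) * ∑ x, W x * f x := by
      rw [mul_sum, mul_sum, ← sum_sub_distrib]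
      exact sum_congr rfl fun x _ => by simp only [ha]; ring
    rw [e, e1, e2, ← hlin, mass]
    ring
  rw [hfl] at hsum
  have hval : mass W * (r * N - C * N * r ^ 2 / 2 * F) = mass W * N / (2 * (C * F)) := by
    rw [hr]; field_simp; ring
  rw [hval, div_le_iff₀ (by positivity)] at hsum
  have h2 : F * (∑ x, W x * exp (a x) - ∑ x, W x) ≤ 0 :=
    mul_nonpos_of_nonneg_of_nonpos hFp.le (sub_nonpos.2 hexp)
  refine hsum.trans ?_
  rw [ent, ← hF]
  nlinarith [mul_nonneg (mul_pos hC hFp).le (neg_nonneg.2 h2)]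

end Vale.Agent.P150.Ent
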