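import Mathlib
import Vale.Agent.P150.Ent.Product
import Vale.Agent.P150.Ent.Subgauss

/-!
Approximate tensorisation of entropy for a quadratic weight, from a bound on the variances of
linear functions along all fields and all smaller couplings. This is a finite form of
stochastic localisation: one Gaussian factor is replaced by a product of hyperbolic cosines.
Used for P150.
-/

open Real Finset

namespace Vale.Agent.P150.Ent

variable {n : ℕ}

/-- The quadratic form `|B x|²`. -/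
def quad (B : Fin n → Fin n → ℝ) (x : Conf n) : ℝ := ∑ u, lin (B u) x ^ 2

/-- The weight `exp (s |B x|² / 2 + h · x)`. -/
noncomputable def wt (B : Fin n → Fin n → ℝ) (s : ℝ) (h : Fin n → ℝ) (x : Conf n) : ℝ :=
  exp (s / 2 * quad B x + lin h x)

theorem wt_pos (B : Fin n → Fin n → ℝ) (s : ℝ) (h : Fin n → ℝ) (x : Conf n) : 0 < wt B s h x :=
  exp_pos _

theorem tilt_wt (B : Fin n → Fin n → ℝ) (s : ℝ) (h u : Fin n → ℝ) (r : ℝ) :
    tilt (wt B s h) u r = wt B s (fun j => h j + r * u j) := by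
  funext x
  simp only [tilt, wt, lin, ← exp_add, add_mul, sum_add_distrib, mul_sum, mul_assoc]
  ring_nf

theorem sum_spin_pair (u v : Fin n) :
    ∑ ξ : Conf n, spin (ξ u) * spin (ξ v) = if u = v then (2 : ℝ) ^ n else 0 := by
  split
  · next h =>
    subst h
    have : ∀ ξ : Conf n, spin (ξ u) * spin (ξ u) = 1 := fun ξ => by cases ξ u <;> simp [spin]
    simp [this]
  · next h =>
    have e := sum_flip u fun ξ : Conf n => spin (ξ u) * spin (ξ v)
    have e1 : ∀ ξ : Conf n, spin (flipAt ξ u u) * spin (flipAt ξ u v) = -(spin (ξ u) * spin (ξ v)) := by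
      intro ξ
      rw [flipAt, Function.update_self, Function.update_of_ne (Ne.symm h)]
      cases ξ u <;> cases ξ v <;> simp [spin]
    simp only [e1, sum_neg_distrib] at e
    linarith

theorem sum_lin_sq (b : Fin n → ℝ) : ∑ ξ : Conf n, lin b ξ ^ 2 = 2 ^ n * ∑ u, b u ^ 2 := by
  have e : ∀ ξ : Conf n, lin b ξ ^ 2 = ∑ u, ∑ v, b u * b v * (spin (ξ u) * spin (ξ v)) := fun ξ => by
    rw [lin, pow_two, sum_mul_sum]
    exact sum_congr rfl fun u _ => sum_congr rfl fun v _ => by ring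
  simp only [e]
  rw [sum_comm, mul_sum]
  refine sum_congr rfl fun u _ => ?_
  rw [sum_comm]
  simp only [← mul_sum, sum_spin_pair, mul_ite, mul_zero, sum_ite_eq, mem_univ, if_true]
  ring

theorem sum_exp_lin (t : ℝ) (a : Fin n → ℝ) :
    ∑ ξ : Conf n, exp (t * lin a ξ) = 2 ^ n * ∏ u, cosh (t * a u) := by
  have e : ∀ ξ : Conf n, exp (t * lin a ξ) = ∏ u, exp (t * (a u * spin (ξ u))) := fun ξ => by
    rw [← exp_sum, lin, mul_sum]
  simp only [e]
  rw [← Fintype.prod_sum (fun u (b : Bool) => exp (t * (a u * spin b)))]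
  have h2 : (2 : ℝ) ^ n = ∏ _u : Fin n, (2 : ℝ) := by simp
  rw [h2, ← prod_mul_distrib]
  refine prod_congr rfl fun u _ => ?_
  rw [cosh_eq, Fintype.sum_bool]
  simp only [spin, if_true, Bool.false_eq_true, if_false]
  ring_nf

theorem one_add_ge {v : ℝ} (hv : 0 ≤ v) : exp (v - v ^ 2) ≤ 1 + v := by
  have h := add_one_le_exp (-(v / (1 + v)))
  have h1 : (0 : ℝ) < 1 + v := by linarith
  have e : -(v / (1 + v)) + 1 = (1 + v)⁻¹ := by field_simp; ring
  rw [e, exp_neg, inv_le_inv₀ h1 (exp_pos _)] at h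
  refine (exp_le_exp.2 ?_).trans h
  rw [le_div_iff₀ h1]
  linarith [pow_nonneg hv 3]

theorem exp_sq_le_cosh (z : ℝ) : exp (z ^ 2 / 2) ≤ exp (z ^ 4 / 4) * cosh z := by
  have h1 : 1 + z ^ 2 / 2 ≤ cosh z := by
    have h : |z / 2| ≤ |sinh (z / 2)| := by
      rw [abs_sinh]; exact self_le_sinh_iff.2 (abs_nonneg _)
    have h2 := sq_le_sq.2 h
    have e := cosh_two_mul (z / 2)
    rw [show 2 * (z / 2) = z by ring, cosh_sq] at e
    linarith
  have h2 := (one_add_ge (v := z ^ 2 / 2) (by positivity)).trans h1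
  have h3 := mul_le_mul_of_nonneg_left h2 (exp_pos (z ^ 4 / 4)).le
  rw [← exp_add] at h3
  refine le_trans (le_of_eq ?_) h3
  congr 1
  ring

/-- The quantities fixed along the induction: a coupling factor and its constants. -/
def Bounds (B : Fin n → Fin n → ℝ) (Λ C R : ℝ) : Prop :=
  0 ≤ Λ ∧ 0 < C ∧ 1 ≤ R ∧ (∑ u, ∑ j, |B u j|) ≤ R ∧
  (∀ c : Fin n → ℝ, ∑ u, (∑ j, B u j * c j) ^ 2 ≤ Λ * ∑ j, c j ^ 2) ∧
  ∀ s : ℝ, 0 ≤ s → s ≤ 1 → ∀ h u : Fin n → ℝ,
    avg (wt B s h) (fun x => lin u x ^ 2) - avg (wt B s h) (lin u) ^ 2 ≤ C * ∑ j, u j ^ 2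

theorem abs_lin_le (u : Fin n → ℝ) (x : Conf n) : |lin u x| ≤ ∑ j, |u j| := by
  refine (abs_sum_le_sum_abs _ _).trans (sum_le_sum fun j _ => ?_)
  rw [abs_mul]
  cases x j <;> simp [spin]

variable {B : Fin n → Fin n → ℝ} {Λ C R : ℝ}

theorem sum_abs_q (hB : Bounds B Λ C R) (x : Conf n) : ∑ u, |lin (B u) x| ≤ R :=
  (sum_le_sum fun u _ => abs_lin_le (B u) x).trans hB.2.2.2.1

theorem shift_wt (B : Fin n → Fin n → ℝ) (s t : ℝ) (h : Fin n → ℝ) (ξ x : Conf n) :
    wt B s (fun j => h j + t * ∑ u, spin (ξ u) * B u j) x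
      = wt B s h x * exp (t * lin (fun u => lin (B u) x) ξ) := by
  have e : lin (fun j => h j + t * ∑ u, spin (ξ u) * B u j) x
      = lin h x + t * lin (fun u => lin (B u) x) ξ := by
    simp only [lin, add_mul, sum_add_distrib, mul_sum, sum_mul]
    congr 1
    rw [sum_comm]
    exact sum_congr rfl fun u _ => sum_congr rfl fun j _ => by ring
  rw [wt, wt, e, ← exp_add, add_assoc]

/-- Gaussian factors against hyperbolic cosines. -/
theorem cosh_compare (q : Fin n → ℝ) {t R : ℝ} (hq : ∑ u, |q u| ≤ R) (hR : 0 ≤ R) (ht : 0 ≤ t) :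
    ∏ u, cosh (t * q u) ≤ ∏ u, exp ((t * q u) ^ 2 / 2) ∧
    ∏ u, exp ((t * q u) ^ 2 / 2) ≤ exp (t ^ 4 * R ^ 4) * ∏ u, cosh (t * q u) := by
  refine ⟨prod_le_prod (fun u _ => (cosh_pos _).le) fun u _ => cosh_le_exp_half_sq _,
    (prod_le_prod (fun u _ => (exp_pos _).le) fun u _ => exp_sq_le_cosh _).trans ?_⟩
  rw [prod_mul_distrib, ← exp_sum]
  refine mul_le_mul_of_nonneg_right (exp_le_exp.2 ?_) (prod_nonneg fun u _ => (cosh_pos _).le)
  calc ∑ u, (t * q u) ^ 4 / 4 ≤ ∑ u, t ^ 4 * R ^ 3 * |q u| := by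
        refine sum_le_sum fun u _ => ?_
        have hu : |q u| ≤ R :=
          (single_le_sum (f := fun v => |q v|) (fun v _ => abs_nonneg _) (mem_univ u)).trans
            hq
        have h4 : (q u) ^ 4 ≤ R ^ 3 * |q u| := by
          rw [← (show Even 4 by decide).pow_abs, pow_succ]
          exact mul_le_mul_of_nonneg_right (pow_le_pow_left₀ (abs_nonneg _) hu 3) (abs_nonneg _)
        have h5 := mul_le_mul_of_nonneg_left h4 (show (0 : ℝ) ≤ t ^ 4 by positivity)
        linarith [pow_nonneg (show (0 : ℝ) ≤ t * |q u| by positivity) 4,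
          (show Even 4 by decide).pow_nonneg (t * q u)]
    _ ≤ t ^ 4 * R ^ 4 := by
        rw [← mul_sum, pow_succ R 3, ← mul_assoc]
        exact mul_le_mul_of_nonneg_left hq (by positivity)

/-- Covariances with linear functions of the shifts. -/
theorem sum_shift_eq {W : Conf n → ℝ} (hW : ∀ x, 0 < W x) (f : Conf n → ℝ) (B : Fin n → Fin n → ℝ)
    (ξ : Conf n) :
    ∑ x, W x * ((f x - avg W f) * lin (fun u => lin (B u) x) ξ)
      = mass W * lin (fun u => ∑ j, B u j * covVec W f j) ξ := by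
  have e1 : ∀ j, mass W * covVec W f j = ∑ x, W x * ((f x - avg W f) * spin (x j)) := fun j => by
    have a1 : ∑ x, W x * (f x * spin (x j))
        = avg W (fun x => f x * spin (x j)) * mass W := sum_eq_avg hW _
    have a2 : ∑ x, W x * spin (x j) = avg W (fun x => spin (x j)) * mass W := sum_eq_avg hW _
    have a3 : ∑ x, W x * ((f x - avg W f) * spin (x j))
        = ∑ x, W x * (f x * spin (x j)) - avg W f * ∑ x, W x * spin (x j) := by
      rw [mul_sum, ← sum_sub_distrib]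
      exact sum_congr rfl fun x _ => by ring
    rw [a3, a1, a2, covVec]
    ring
  simp only [lin, mul_sum, sum_mul]
  rw [sum_comm]
  refine sum_congr rfl fun u _ => ?_
  rw [sum_comm]
  refine sum_congr rfl fun j _ => ?_
  rw [show mass W * (B u j * covVec W f j * spin (ξ u))
      = B u j * spin (ξ u) * (mass W * covVec W f j) by ring, e1, mul_sum]
  exact sum_congr rfl fun x _ => by ring

/-- The effect of a small shift `W ↦ W exp (t η)` on the mean of `f`. -/
theorem shift_term {W W' f η : Conf n → ℝ} {lo hi t R L : ℝ} (hW : ∀ x, 0 < W x)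
    (hW' : ∀ x, W' x = W x * exp (t * η x)) (hη : ∀ x, |η x| ≤ R) (hlo : 0 < lo)
    (hflo : ∀ x, lo ≤ f x) (hfhi : ∀ x, f x ≤ hi) (ht : 0 < t) (hR : 1 ≤ R) (htR : t * R ≤ 1)
    (hL : ∑ x, W x * ((f x - avg W f) * η x) = mass W * L) :
    mass W' * phi (avg W' f) (avg W f)
      ≤ exp (t * R) * (t ^ 2 * (mass W / avg W f) * L ^ 2
          + 3 * hi ^ 2 * R ^ 4 / lo * t ^ 3 * mass W) := by
  have hWp' : ∀ x, 0 < W' x := fun x => by rw [hW']; exact mul_pos (hW x) (exp_pos _)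
  have hf : ∀ x, 0 < f x := fun x => hlo.trans_le (hflo x)
  have hhi : 0 < hi := hlo.trans_le ((hflo default).trans (hfhi default))
  set F0 := avg W f with hF0
  have hF0m : lo ≤ F0 ∧ F0 ≤ hi := avg_mem hW hflo hfhi
  have hF0p : 0 < F0 := avg_pos hW hf
  have hZ0 : 0 < mass W := mass_pos hW
  have htη : ∀ x, |t * η x| ≤ t * R := fun x => by
    rw [abs_mul, abs_of_pos ht]; exact mul_le_mul_of_nonneg_left (hη x) ht.le
  have hWle : ∀ x, W x ≤ exp (t * R) * W' x := fun x => by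
    rw [hW', mul_left_comm, ← exp_add]
    exact le_mul_of_one_le_right (hW x).le (one_le_exp (by linarith [(abs_le.1 (htη x)).1]))
  have hZ := mass_pos hWp'
  refine (mul_le_mul_of_nonneg_left (phi_le_sq_div (avg_pos hWp' hf) hF0p) hZ.le).trans ?_
  set N := ∑ x, W' x * (f x - F0) with hN
  have eN : N = mass (W') * (avg (W') f - F0) := by
    simp only [hN, mul_sub, sum_sub_distrib, ← sum_mul, sum_eq_avg hWp' f, mass]
    ring
  have e : mass (W') * ((avg (W') f - F0) ^ 2 / F0) = N ^ 2 / (mass (W') * F0) := by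
    rw [eN]; field_simp
  rw [e]
  set r := N - t * (mass W * L) with hr
  have hrb : |r| ≤ mass W * hi * (t * R) ^ 2 := by
    have e0 : ∑ x, W x * (f x - F0) = 0 := by
      simp only [mul_sub, sum_sub_distrib, ← sum_mul, sum_eq_avg hW f, ← hF0, mass]
      ring
    have er : r = ∑ x, W x * ((f x - F0) * (exp (t * η x) - 1 - t * η x)) := by
      rw [hr, hN, ← hL, mul_sum]
      have : ∀ x, W x * ((f x - F0) * (exp (t * η x) - 1 - t * η x))
          = W' x * (f x - F0) - W x * (f x - F0) - t * (W x * ((f x - F0) * η x)) :=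
        fun x => by rw [hW']; ring
      simp only [this, sum_sub_distrib, e0]
      ring
    rw [er, mass, sum_mul, sum_mul]
    refine (abs_sum_le_sum_abs _ _).trans (sum_le_sum fun x _ => ?_)
    rw [abs_mul, abs_mul, abs_of_pos (hW x), mul_assoc]
    refine mul_le_mul_of_nonneg_left (mul_le_mul ?_ ?_ (abs_nonneg _) hhi.le) (hW x).le
    · exact abs_le.2 ⟨by linarith [hflo x, hF0m.2], by linarith [hfhi x, hF0m.1]⟩
    · refine (abs_exp_sub_one_sub_id_le ((htη x).trans htR)).trans ?_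
      rw [← sq_abs]
      exact pow_le_pow_left₀ (abs_nonneg _) (htη x) 2
  have hLb : |mass W * L| ≤ mass W * hi * R := by
    rw [← hL, mass, sum_mul, sum_mul]
    refine (abs_sum_le_sum_abs _ _).trans (sum_le_sum fun x _ => ?_)
    rw [abs_mul, abs_mul, abs_of_pos (hW x), mul_assoc]
    exact mul_le_mul_of_nonneg_left (mul_le_mul
      (abs_le.2 ⟨by linarith [hflo x, hF0m.2], by linarith [hfhi x, hF0m.1]⟩) (hη x)
      (abs_nonneg _) hhi.le) (hW x).le
  have hN2b : N ^ 2 ≤ t ^ 2 * (mass W * L) ^ 2 + 3 * hi ^ 2 * R ^ 4 * mass W ^ 2 * t ^ 3 := by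
    have eN2 : N ^ 2 = t ^ 2 * (mass W * L) ^ 2 + 2 * t * (mass W * L) * r + r ^ 2 := by
      rw [hr]; ring
    have p1 : (mass W * L) * r ≤ (mass W * hi * R) * (mass W * hi * (t * R) ^ 2) :=
      (le_abs_self _).trans (by rw [abs_mul]; exact mul_le_mul hLb hrb (abs_nonneg _) (by positivity))
    have p2 : r ^ 2 ≤ (mass W * hi * (t * R) ^ 2) ^ 2 := by
      rw [← sq_abs]; exact pow_le_pow_left₀ (abs_nonneg _) hrb 2
    have hA : 0 ≤ mass W ^ 2 * hi ^ 2 * t ^ 3 * R ^ 3 := by positivity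
    have ht1 : t ≤ 1 := le_trans (le_mul_of_one_le_right ht.le hR) htR
    linarith [mul_le_mul_of_nonneg_left p1 ht.le, mul_le_mul_of_nonneg_left hR hA,
      mul_le_mul_of_nonneg_left ht1 (mul_nonneg hA (zero_le_one.trans hR))]
  have hlow : mass W * F0 ≤ exp (t * R) * (mass (W') * F0) := by
    rw [← mul_assoc]
    refine mul_le_mul_of_nonneg_right ?_ hF0p.le
    rw [mass, mass, mul_sum]
    exact sum_le_sum fun x _ => hWle x
  calc N ^ 2 / (mass (W') * F0) ≤ exp (t * R) * (N ^ 2 / (mass W * F0)) := by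
        rw [mul_div_assoc', div_le_div_iff₀ (by positivity) (by positivity)]
        linarith [mul_le_mul_of_nonneg_left hlow (sq_nonneg N)]
    _ ≤ exp (t * R) * (t ^ 2 * (mass W / F0) * L ^ 2
          + 3 * hi ^ 2 * R ^ 4 * t ^ 3 * mass W / F0) := by
        refine mul_le_mul_of_nonneg_left ?_ (exp_pos _).le
        rw [div_le_iff₀ (by positivity)]
        refine hN2b.trans (le_of_eq ?_)
        field_simp
    _ ≤ _ := by
        refine mul_le_mul_of_nonneg_left ?_ (exp_pos _).le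
        have : 3 * hi ^ 2 * R ^ 4 * t ^ 3 * mass W / F0 ≤ 3 * hi ^ 2 * R ^ 4 * t ^ 3 * mass W / lo :=
          div_le_div_of_nonneg_left (by positivity) hlo hF0m.1
        refine add_le_add le_rfl (this.trans (le_of_eq ?_))
        field_simp

/-- One step of the induction. -/
theorem step (hB : Bounds B Λ C R) {f : Conf n → ℝ} {lo hi : ℝ} (hlo : 0 < lo)
    (hflo : ∀ x, lo ≤ f x) (hfhi : ∀ x, f x ≤ hi) {s t a b : ℝ} (hs : 0 ≤ s) (ht : 0 < t)
    (htR : t * R ≤ 1) (hs1 : s + t ^ 2 ≤ 1) (ha : 0 ≤ a) (hb : 0 ≤ b)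
    (ih : ∀ h, ent (wt B s h) f ≤ a * entTot (wt B s h) f + b * mass (wt B s h)) (h : Fin n → ℝ) :
    ent (wt B (s + t ^ 2) h) f
      ≤ exp (t ^ 4 * R ^ 4 + 2 * C * Λ * t ^ 2 * exp (2 * t * R)) * a * entTot (wt B (s + t ^ 2) h) f
        + (exp (t ^ 4 * R ^ 4 + 2 * C * Λ * t ^ 2 * exp (2 * t * R)) * b
          + exp (R ^ 4) * (exp 1 * (3 * hi ^ 2 * R ^ 4 / lo)) * t ^ 3) * mass (wt B (s + t ^ 2) h) := by
  have hB' := hB
  obtain ⟨hΛ, hC, hR, -, hop, hvar⟩ := hB
  have hf : ∀ x, 0 < f x := fun x => hlo.trans_le (hflo x)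
  have hhi : 0 < hi := hlo.trans_le ((hflo default).trans (hfhi default))
  set W0 := wt B s h with hW0
  set W1 := wt B (s + t ^ 2) h with hW1
  set q : Conf n → Fin n → ℝ := fun x u => lin (B u) x with hq
  set Wξ : Conf n → Conf n → ℝ := fun ξ => wt B s (fun j => h j + t * ∑ u, spin (ξ u) * B u j) with hWξ
  have hW0p : ∀ x, 0 < W0 x := fun x => wt_pos B s h x
  have hW1p : ∀ x, 0 < W1 x := fun x => wt_pos B _ h x
  have hWξp : ∀ ξ x, 0 < Wξ ξ x := fun ξ x => wt_pos B _ _ x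
  have hWξe : ∀ ξ x, Wξ ξ x = W0 x * exp (t * lin (q x) ξ) := fun ξ x => shift_wt B s t h ξ x
  have hη : ∀ ξ x, |lin (q x) ξ| ≤ R := fun ξ x => (abs_lin_le _ ξ).trans (sum_abs_q hB' x)
  have htη : ∀ ξ x, |t * lin (q x) ξ| ≤ t * R := fun ξ x => by
    rw [abs_mul, abs_of_pos ht]; exact mul_le_mul_of_nonneg_left (hη ξ x) ht.le
  set N2 : ℝ := 2 ^ n with hN2
  have hN2p : 0 < N2 := by positivity
  set S : Conf n → ℝ := fun x => ∑ ξ, Wξ ξ x with hS
  have hSp : ∀ x, 0 < S x := fun x => sum_pos (fun ξ _ => hWξp ξ x) univ_nonempty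
  have hSe : ∀ x, S x = N2 * (W0 x * ∏ u, cosh (t * q x u)) := fun x => by
    simp only [hS, hWξe, ← mul_sum, sum_exp_lin]; ring
  have hW1e : ∀ x, W1 x = W0 x * ∏ u, exp ((t * q x u) ^ 2 / 2) := fun x => by
    rw [← exp_sum, hW1, hW0, wt, wt, ← exp_add, quad]
    congr 1
    rw [mul_sum, mul_sum]
    have : ∀ u, (s + t ^ 2) / 2 * lin (B u) x ^ 2 = s / 2 * lin (B u) x ^ 2 + (t * q x u) ^ 2 / 2 :=
      fun u => by simp only [hq]; ring
    simp only [this, sum_add_distrib]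
    ring
  -- comparison of the two weights
  have hSle : ∀ x, S x ≤ N2 * W1 x := fun x => by
    rw [hSe, hW1e]
    exact mul_le_mul_of_nonneg_left (mul_le_mul_of_nonneg_left
      (cosh_compare (q x) (sum_abs_q hB' x) (by linarith) ht.le).1 (hW0p x).le) hN2p.le
  have hW1le : ∀ x, W1 x ≤ exp (t ^ 4 * R ^ 4) / N2 * S x := fun x => by
    have h1 := (cosh_compare (q x) (sum_abs_q hB' x) (by linarith) ht.le).2
    rw [hSe, hW1e, div_mul_eq_mul_div, le_div_iff₀ hN2p]
    have h2 := mul_le_mul_of_nonneg_left h1 (mul_pos hN2p (hW0p x)).le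
    linarith
  have hW0le : ∀ ξ x, W0 x ≤ exp (t * R) * Wξ ξ x := fun ξ x => by
    rw [hWξe, mul_left_comm, ← exp_add]
    exact le_mul_of_one_le_right (hW0p x).le (one_le_exp (by linarith [(abs_le.1 (htη ξ x)).1]))
  have hW01 : ∀ x, W0 x ≤ W1 x := fun x => by
    rw [hW1e]
    exact le_mul_of_one_le_right (hW0p x).le (one_le_prod fun u _ => one_le_exp (by positivity))
  -- the first-order expansion
  set F0 := avg W0 f with hF0
  have hF0m := avg_mem hW0p hflo hfhi
  have hF0p : 0 < F0 := avg_pos hW0p hf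
  set c := covVec W0 f with hc
  set bv : Fin n → ℝ := fun u => ∑ j, B u j * c j with hbv
  set K := 3 * hi ^ 2 * R ^ 4 / lo with hK
  have hZ0 : 0 < mass W0 := mass_pos hW0p
  have hterm : ∀ ξ, mass (Wξ ξ) * phi (avg (Wξ ξ) f) F0
      ≤ exp (t * R) * (t ^ 2 * (mass W0 / F0) * lin bv ξ ^ 2 + K * t ^ 3 * mass W0) := fun ξ =>
    shift_term hW0p (hWξe ξ) (hη ξ) hlo hflo hfhi ht hR htR (sum_shift_eq hW0p f B ξ)
  -- summation over the mixture
  have hcov : mass W0 / F0 * ∑ u, bv u ^ 2 ≤ 2 * C * Λ * ent W0 f := by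
    have h1 := covVec_sq_le hW0p hf hC fun u r => by
      rw [tilt_wt]; exact hvar s hs (by nlinarith) _ u
    have h2 := mul_le_mul_of_nonneg_left (hop c) hZ0.le
    rw [div_mul_eq_mul_div, div_le_iff₀ hF0p]
    linarith [mul_le_mul_of_nonneg_left h1 hΛ]
  have hkey : ent S f ≤ (1 + 2 * C * Λ * t ^ 2 * exp (2 * t * R)) * ∑ ξ, ent (Wξ ξ) f
      + exp 1 * K * t ^ 3 * (N2 * mass W1) := by
    have h1 : ent S f ≤ ∑ ξ, (ent (Wξ ξ) f + mass (Wξ ξ) * phi (avg (Wξ ξ) f) F0) := by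
      refine (ent_le hSp hf hF0p).trans (le_of_eq ?_)
      simp only [← ent_eq (hWξp _), hS, sum_mul]
      rw [sum_comm]
    rw [sum_add_distrib] at h1
    have h2 := sum_le_sum (s := univ) fun ξ _ => hterm ξ
    rw [← mul_sum, sum_add_distrib, ← mul_sum, sum_lin_sq, sum_const, card_univ] at h2
    simp only [Fintype.card_fun, Fintype.card_bool, Fintype.card_fin, nsmul_eq_mul, Nat.cast_pow,
      Nat.cast_ofNat, ← hN2] at h2
    have h3 : N2 * ent W0 f ≤ exp (t * R) * ∑ ξ, ent (Wξ ξ) f := by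
      rw [mul_sum]
      refine le_trans (le_of_eq ?_) (sum_le_sum fun ξ _ => ent_mono hW0p (hWξp ξ) hf (hW0le ξ))
      simp [hN2]
    have hm01 : mass W0 ≤ mass W1 := sum_le_sum fun x _ => hW01 x
    have hK0 : 0 ≤ K := by rw [hK]; positivity
    have he : exp (2 * t * R) = exp (t * R) * exp (t * R) := by rw [← exp_add]; ring_nf
    have he1 : exp (t * R) ≤ exp 1 := exp_le_exp.2 htR
    rw [he]
    have a1 := mul_le_mul_of_nonneg_left hcov (show 0 ≤ exp (t * R) * t ^ 2 * N2 by positivity)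
    have a2 := mul_le_mul_of_nonneg_left h3 (show 0 ≤ exp (t * R) * t ^ 2 * (2 * C * Λ) by positivity)
    have a3 : exp (t * R) * (N2 * (K * t ^ 3 * mass W0)) ≤ exp 1 * (N2 * (K * t ^ 3 * mass W1)) :=
      mul_le_mul he1 (mul_le_mul_of_nonneg_left (mul_le_mul_of_nonneg_left hm01 (by positivity))
        hN2p.le) (by positivity) (exp_pos 1).le
    linarith
  have hSum : ∑ ξ, ent (Wξ ξ) f ≤ a * (N2 * entTot W1 f) + b * (N2 * mass W1) := by
    refine (sum_le_sum fun ξ _ => ih _).trans ?_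
    rw [sum_add_distrib, ← mul_sum, ← mul_sum]
    refine add_le_add (mul_le_mul_of_nonneg_left ?_ ha) (mul_le_mul_of_nonneg_left ?_ hb)
    · exact (entTot_sum_le Wξ hWξp hf).trans (entTot_mono hSp hW1p hf hSle)
    · simp only [mass]
      rw [sum_comm, mul_sum]
      exact sum_le_sum fun x _ => hSle x
  have hfin := ent_mono hW1p hSp hf hW1le
  set γ := 2 * C * Λ * t ^ 2 * exp (2 * t * R) with hγ
  have hγ0 : 0 ≤ γ := by rw [hγ]; positivity
  have hγe : 1 + γ ≤ exp γ := by linarith [add_one_le_exp γ]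
  have hT : 0 ≤ entTot W1 f := sum_nonneg fun i _ => entSite_nonneg hW1p hf i
  have hK0 : 0 ≤ K := by rw [hK]; positivity
  have hm1 : 0 < mass W1 := mass_pos hW1p
  have hSum' := mul_le_mul hγe hSum (sum_nonneg fun ξ _ => ent_nonneg (hWξp ξ) hf) (exp_pos γ).le
  have hε : exp (t ^ 4 * R ^ 4) ≤ exp (R ^ 4) := by
    refine exp_le_exp.2 (mul_le_of_le_one_left (by positivity) (pow_le_one₀ ht.le ?_))
    exact le_trans (le_mul_of_one_le_right ht.le hR) htR
  calc ent W1 f ≤ exp (t ^ 4 * R ^ 4) / N2 * ent S f := hfin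
    _ ≤ exp (t ^ 4 * R ^ 4) / N2 * (exp γ * (a * (N2 * entTot W1 f) + b * (N2 * mass W1))
          + exp 1 * K * t ^ 3 * (N2 * mass W1)) :=
        mul_le_mul_of_nonneg_left (hkey.trans (by linarith)) (by positivity)
    _ = exp (t ^ 4 * R ^ 4) * exp γ * (a * entTot W1 f + b * mass W1)
          + exp (t ^ 4 * R ^ 4) * (exp 1 * K * t ^ 3 * mass W1) := by field_simp
    _ ≤ exp (t ^ 4 * R ^ 4) * exp γ * (a * entTot W1 f + b * mass W1)
          + exp (R ^ 4) * (exp 1 * K * t ^ 3 * mass W1) :=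
        add_le_add le_rfl (mul_le_mul_of_nonneg_right hε (by positivity))
    _ = _ := by rw [← exp_add]; ring

/-- Approximate tensorisation of entropy. -/
theorem tensorisation (hB : Bounds B Λ C R) {f : Conf n → ℝ} (hf : ∀ x, 0 < f x) (h : Fin n → ℝ) :
    ent (wt B 1 h) f ≤ exp (2 * C * Λ) * entTot (wt B 1 h) f := by
  obtain ⟨x0, hx0⟩ := Finite.exists_min f
  obtain ⟨x1, hx1⟩ := Finite.exists_max f
  set K := exp (R ^ 4) * (exp 1 * (3 * f x1 ^ 2 * R ^ 4 / f x0)) with hK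
  have hR : 1 ≤ R := hB.2.2.1
  have hK0 : 0 ≤ K := by have := hf x0; rw [hK]; positivity
  have main : ∀ N : ℕ, R ≤ N → ent (wt B 1 h) f
      ≤ exp (R ^ 4 * (1 / (N : ℝ)) ^ 2 + 2 * C * Λ * exp (2 * (1 / (N : ℝ)) * R))
        * (entTot (wt B 1 h) f + K * (1 / (N : ℝ)) * mass (wt B 1 h)) := by
    intro N hN
    have hNp : (0 : ℝ) < N := by linarith
    set t := 1 / (N : ℝ) with ht
    have htp : 0 < t := by rw [ht]; positivity
    have htR : t * R ≤ 1 := by rw [ht, div_mul_eq_mul_div, one_mul, div_le_one hNp]; exact hN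
    set e := t ^ 4 * R ^ 4 + 2 * C * Λ * t ^ 2 * exp (2 * t * R) with he
    have he0 : 0 ≤ e := by
      have := hB.1; have := hB.2.1
      rw [he]; positivity
    have hNt : (N : ℝ) ^ 2 * t ^ 2 = 1 := by rw [ht]; field_simp
    have ind : ∀ k : ℕ, k ≤ N ^ 2 → ∀ h, ent (wt B (k * t ^ 2) h) f
        ≤ exp (k * e) * entTot (wt B (k * t ^ 2) h) f
          + k * exp (k * e) * (K * t ^ 3) * mass (wt B (k * t ^ 2) h) := by
      intro k
      induction k with
      | zero =>
        intro _ h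
        simp only [Nat.cast_zero, zero_mul, exp_zero, one_mul, add_zero]
        have e0 : wt B 0 h = prodW (fun j b => exp (h j * spin b)) := by
          funext x; simp [wt, lin, prodW, exp_sum]
        rw [e0]
        exact ent_le_entTot_prod n _ (fun _ _ => exp_pos _) f hf
      | succ k ih =>
        intro hk h
        have hk' : ((k : ℝ) + 1) * t ^ 2 ≤ 1 := by
          have hkN : (k : ℝ) + 1 ≤ (N : ℝ) ^ 2 := by exact_mod_cast hk
          exact (mul_le_mul_of_nonneg_right hkN (sq_nonneg t)).trans_eq hNt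
        have hstep := step hB (hf x0) hx0 hx1 (s := k * t ^ 2) (a := exp (k * e))
          (b := k * exp (k * e) * (K * t ^ 3)) (by positivity) htp htR (by linarith)
          (exp_pos _).le (by positivity) (ih (Nat.le_of_succ_le hk)) h
        rw [← he, ← hK] at hstep
        push_cast
        rw [show ((k : ℝ) + 1) * t ^ 2 = k * t ^ 2 + t ^ 2 by ring,
          show ((k : ℝ) + 1) * e = e + k * e by ring, exp_add]
        refine hstep.trans (add_le_add le_rfl (mul_le_mul_of_nonneg_right ?_ (mass_pos (wt_pos B _ h)).le))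
        have h1 : 1 ≤ exp e * exp (k * e) := one_le_mul_of_one_le_of_one_le (one_le_exp he0)
          (one_le_exp (by positivity))
        linarith [mul_le_mul_of_nonneg_right h1 (show 0 ≤ K * t ^ 3 by positivity)]
    have hlast := ind (N ^ 2) le_rfl h
    push_cast at hlast
    rw [hNt] at hlast
    refine hlast.trans (le_of_eq ?_)
    have ee : (N : ℝ) ^ 2 * e = R ^ 4 * t ^ 2 + 2 * C * Λ * exp (2 * t * R) := by
      rw [he]; linear_combination (t ^ 2 * R ^ 4 + 2 * C * Λ * exp (2 * t * R)) * hNt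
    rw [ee]
    linear_combination (exp (R ^ 4 * t ^ 2 + 2 * C * Λ * exp (2 * t * R)) * K * t
      * mass (wt B 1 h)) * hNt
  have hlim : Filter.Tendsto (fun N : ℕ =>
      exp (R ^ 4 * (1 / (N : ℝ)) ^ 2 + 2 * C * Λ * exp (2 * (1 / (N : ℝ)) * R))
        * (entTot (wt B 1 h) f + K * (1 / (N : ℝ)) * mass (wt B 1 h))) Filter.atTop
      (nhds (exp (2 * C * Λ) * entTot (wt B 1 h) f)) := by
    have hc : Continuous fun t : ℝ => exp (R ^ 4 * t ^ 2 + 2 * C * Λ * exp (2 * t * R))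
        * (entTot (wt B 1 h) f + K * t * mass (wt B 1 h)) := by fun_prop
    have := (hc.tendsto 0).comp (tendsto_const_div_atTop_nhds_zero_nat (1 : ℝ))
    simpa [Function.comp_def] using this
  refine ge_of_tendsto hlim (Filter.eventually_atTop.2 ⟨⌈R⌉₊, fun N hN => main N ?_⟩)
  exact (Nat.le_ceil R).trans (by exact_mod_cast hN)

end Vale.Agent.P150.Ent
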