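import Mathlib
import Vale.Agent.P150.Ent.Tensor
import Vale.Agent.P150.Ent.Decay

/-!
Mixing time of heat-bath dynamics from a field-uniform bound on the variances of linear
functions. Used for P150.
-/

open Real Finset

namespace Vale.Agent.P150.Ent

variable {n : ℕ} {β : ℝ} {g : Pair n → ℝ}

theorem quad_le {B : Fin n → Fin n → ℝ} {Λ : ℝ}
    (hop : ∀ c : Fin n → ℝ, ∑ u, (∑ j, B u j * c j) ^ 2 ≤ Λ * ∑ j, c j ^ 2) (x : Conf n) :
    quad B x ≤ Λ * n := by
  refine (hop fun j => spin (x j)).trans (le_of_eq ?_)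
  simp [spin_sq, pow_two]

/-- If the energy is `|B x|²/2` up to a constant, `|B c|² ≤ Λ |c|²`, and along all fields and all
couplings `s ∈ [0,1]` the variances of linear functions are at most `C |u|²`, then the dynamics
mixes by time `exp (2 C Λ) log (64 (n (1 + Λ) + 1))`. -/
theorem mixedBy_of_linVar (B : Fin n → Fin n → ℝ) (c₀ : ℝ) {Λ C : ℝ} (hΛ : 0 ≤ Λ) (hC : 0 < C)
    (hE : ∀ x, energy n β g x = quad B x / 2 - c₀)
    (hop : ∀ c : Fin n → ℝ, ∑ u, (∑ j, B u j * c j) ^ 2 ≤ Λ * ∑ j, c j ^ 2)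
    (hvar : ∀ s : ℝ, 0 ≤ s → s ≤ 1 → ∀ h u : Fin n → ℝ,
      avg (wt B s h) (fun x => lin u x ^ 2) - avg (wt B s h) (lin u) ^ 2 ≤ C * ∑ j, u j ^ 2)
    {t : ℝ} (ht : exp (2 * C * Λ) * log (64 * (n * (1 + Λ) + 1)) ≤ t) : MixedBy n β g t := by
  have hB : Bounds B Λ C (1 + ∑ u, ∑ j, |B u j|) :=
    ⟨hΛ, hC, le_add_of_nonneg_right (sum_nonneg fun u _ => sum_nonneg fun j _ => abs_nonneg _),
      le_add_of_nonneg_left zero_le_one, hop, hvar⟩
  set W : Conf n → ℝ := wt B 1 0 with hW
  have hWp : ∀ x, 0 < W x := fun x => wt_pos B 1 0 x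
  have hWe : ∀ x, W x = exp c₀ * exp (energy n β g x) := fun x => by
    rw [hW, wt, ← exp_add, hE]; simp [lin]; ring
  have hZ : 0 < mass W := mass_pos hWp
  have hmu : ∀ x, mu n β g x = W x / mass W := fun x => by
    simp only [mass, hWe, ← mul_sum, mu]
    rw [mul_div_mul_left _ _ (exp_pos c₀).ne']
  refine mixedBy_of_tensor (exp_pos _) (le_add_of_nonneg_left (by positivity)) (fun u hu => ?_)
    (fun x => ?_) ht
  · calc ent (mu n β g) u ≤ 1 / mass W * ent W u :=
          ent_mono (mu_pos g) hWp hu fun x => le_of_eq (by rw [hmu]; ring)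
      _ ≤ 1 / mass W * (exp (2 * C * Λ) * entTot W u) :=
          mul_le_mul_of_nonneg_left (tensorisation hB hu 0) (by positivity)
      _ ≤ 1 / mass W * (exp (2 * C * Λ) * (mass W * entTot (mu n β g) u)) := by
          refine mul_le_mul_of_nonneg_left (mul_le_mul_of_nonneg_left ?_ (exp_pos _).le) (by positivity)
          exact entTot_mono hWp (mu_pos g) hu fun x => le_of_eq (by rw [hmu]; field_simp)
      _ = exp (2 * C * Λ) * entTot (mu n β g) u := by field_simp
  · have h1 : 1 ≤ W x := by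
      rw [hW, wt]
      refine one_le_exp ?_
      have : 0 ≤ quad B x := sum_nonneg fun u _ => sq_nonneg _
      simp [lin]
      linarith
    have h2 : mass W ≤ exp ((n : ℝ) * (1 + Λ) + 1) := by
      refine (sum_le_sum (g := fun _ => exp (Λ * n / 2)) fun y _ => ?_).trans ?_
      · rw [hW, wt]
        refine exp_le_exp.2 ?_
        simp [lin]
        linarith [quad_le hop y]
      · simp only [sum_const, card_univ, Fintype.card_fun, Fintype.card_bool, Fintype.card_fin,
          nsmul_eq_mul, Nat.cast_pow, Nat.cast_ofNat]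
        have h3 : (2 : ℝ) ^ n ≤ exp (n : ℝ) := by
          rw [← exp_one_pow]
          exact pow_le_pow_left₀ (by norm_num) (by linarith [add_one_le_exp (1 : ℝ)]) n
        refine (mul_le_mul_of_nonneg_right h3 (exp_pos _).le).trans ?_
        rw [← exp_add]
        refine exp_le_exp.2 ?_
        have : 0 ≤ Λ * n := by positivity
        linarith
    rw [hmu, exp_neg, le_div_iff₀ hZ, inv_mul_le_iff₀ (exp_pos _)]
    calc mass W ≤ exp ((n : ℝ) * (1 + Λ) + 1) := h2
      _ ≤ exp ((n : ℝ) * (1 + Λ) + 1) * W x := le_mul_of_one_le_right (exp_pos _).le h1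

end Vale.Agent.P150.Ent
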