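import Mathlib
import Vale.Agent.P150.Ent.Mix

/-!
From a symmetric coupling matrix to a factor `B` with `Bᵀ B = K + c`. Used for P150.
-/

open Real Finset
open scoped MatrixOrder

namespace Vale.Agent.P150.Ent

variable {n : ℕ} {β : ℝ} {g : Pair n → ℝ}

/-- The quadratic form of a coupling matrix. -/
def qform (K : Fin n → Fin n → ℝ) (v : Fin n → ℝ) : ℝ := ∑ i, ∑ j, v i * K i j * v j

/-- The weight `exp (x K x / 2 + h · x)`. -/
noncomputable def coupW (K : Fin n → Fin n → ℝ) (h : Fin n → ℝ) (x : Conf n) : ℝ :=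
  exp (qform K (fun i => spin (x i)) / 2 + lin h x)

theorem avg_const_mul {W : Conf n → ℝ} {a : ℝ} (ha : a ≠ 0) (f : Conf n → ℝ) :
    avg (fun x => a * W x) f = avg W f := by
  simp only [avg, mass, mul_assoc, ← mul_sum]
  exact mul_div_mul_left _ _ ha

theorem exists_factor (K : Fin n → Fin n → ℝ) (hK : ∀ i j, K i j = K j i) {c : ℝ}
    (hlo : ∀ v, -(c * ∑ j, v j ^ 2) ≤ qform K v) :
    ∃ B : Fin n → Fin n → ℝ, ∀ v : Fin n → ℝ,
      ∑ u, (∑ j, B u j * v j) ^ 2 = qform K v + c * ∑ j, v j ^ 2 := by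
  set A : Matrix (Fin n) (Fin n) ℝ := Matrix.of K + c • 1 with hA
  have hq : ∀ v : Fin n → ℝ, dotProduct v (Matrix.mulVec A v) = qform K v + c * ∑ j, v j ^ 2 := fun v => by
    simp only [hA, Matrix.add_mulVec, Matrix.smul_mulVec, Matrix.one_mulVec, dotProduct_add,
      dotProduct_smul, smul_eq_mul]
    simp only [dotProduct, Matrix.mulVec, qform, Matrix.of_apply, mul_sum, pow_two, mul_assoc]
  have hsymm : A.IsHermitian := by
    refine Matrix.IsHermitian.ext fun i j => ?_
    rcases eq_or_ne i j with h | h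
    · subst h; simp [hA]
    · simp [hA, h, h.symm, hK j i]
  have hpsd : A.PosSemidef := Matrix.PosSemidef.of_dotProduct_mulVec_nonneg hsymm fun v => by
    rw [star_trivial, hq]; linarith [hlo v]
  obtain ⟨B, hB⟩ := CStarAlgebra.nonneg_iff_eq_star_mul_self.1 (Matrix.nonneg_iff_posSemidef.2 hpsd)
  refine ⟨fun u j => B u j, fun v => ?_⟩
  rw [← hq, hB, Matrix.star_eq_conjTranspose, ← Matrix.mulVec_mulVec,
    Matrix.conjTranspose_eq_transpose_of_trivial, Matrix.dotProduct_mulVec, Matrix.vecMul_transpose]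
  simp [dotProduct, Matrix.mulVec, pow_two]

/-- Fast mixing from a field-uniform variance bound, in terms of the coupling matrix. -/
theorem mixedBy_of_coupling (K : Fin n → Fin n → ℝ) (hK : ∀ i j, K i j = K j i) {l c C : ℝ}
    (hC : 0 < C) (hlc : 0 ≤ l + c) (hE : ∀ x, energy n β g x = qform K (fun i => spin (x i)) / 2)
    (hlo : ∀ v, -(c * ∑ j, v j ^ 2) ≤ qform K v) (hhi : ∀ v, qform K v ≤ l * ∑ j, v j ^ 2)
    (hvar : ∀ s : ℝ, 0 ≤ s → s ≤ 1 → ∀ h u : Fin n → ℝ,
      avg (coupW (fun i j => s * K i j) h) (fun x => lin u x ^ 2)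
        - avg (coupW (fun i j => s * K i j) h) (lin u) ^ 2 ≤ C * ∑ j, u j ^ 2)
    {t : ℝ} (ht : exp (2 * C * (l + c)) * log (64 * (n * (1 + (l + c)) + 1)) ≤ t) :
    MixedBy n β g t := by
  obtain ⟨B, hB⟩ := exists_factor K hK hlo
  have hquad : ∀ x : Conf n, quad B x = qform K (fun i => spin (x i)) + c * n := fun x => by
    simpa [quad, lin, pow_two, spin_sq] using hB fun i => spin (x i)
  refine mixedBy_of_linVar B (c * n / 2) hlc hC (fun x => by rw [hE, hquad]; ring)
    (fun v => by rw [hB]; linarith [hhi v]) (fun s h0 h1 h u => ?_) ht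
  have e : wt B s h = fun x => exp (s * (c * n) / 2) * coupW (fun i j => s * K i j) h x := by
    funext x
    have : qform (fun i j => s * K i j) (fun i => spin (x i)) = s * qform K (fun i => spin (x i)) := by
      simp only [qform, mul_sum]
      exact sum_congr rfl fun i _ => sum_congr rfl fun j _ => by ring
    rw [wt, coupW, ← exp_add, hquad, this]
    ring_nf
  rw [e, avg_const_mul (exp_pos _).ne', avg_const_mul (exp_pos _).ne']
  exact hvar s h0 h1 h u

end Vale.Agent.P150.Ent
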